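import Vale.Agent.P024.H358.Closed
import Vale.Agent.P024.H358.RedAll
import Vale.Agent.P024.ALL.Goal1
import Vale.Agent.P024.ALL.H95.F2
import Vale.Agent.P024.H558.ALL.TH
import Vale.Agent.P024.H903.D1b

/-!
Uchida's conjecture: open homomorphisms of the Galois groups of solvably closed Galois extensions of
number fields are induced by field embeddings.
-/

namespace Vale.Agent.Results.P024.AllNumberFields

/-- `E` has no nontrivial abelian algebraic extension. -/
def IsSolvablyClosed (E : Type*) [Field E] : Prop :=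
  ∀ M : IntermediateField E (AlgebraicClosure E), IsAbelianGalois E M → M = ⊥

/-- **Uchida's conjecture**, for all number fields `F₁` and `F₂` and all solvably closed Galois
extensions `E₁ / F₁` and `E₂ / F₂`: every continuous homomorphism `α` of the Galois groups with
open image is induced by a unique field embedding `j : E₂ → E₁`, that is `g ∘ j = j ∘ α(g)` for
all `g`. -/
theorem result {F₁ E₁ F₂ E₂ : Type*} [Field F₁] [NumberField F₁] [Field E₁]
    [Algebra F₁ E₁] [IsGalois F₁ E₁] [Field F₂] [NumberField F₂] [Field E₂] [Algebra F₂ E₂]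
    [IsGalois F₂ E₂] (hE₁ : IsSolvablyClosed E₁) (hE₂ : IsSolvablyClosed E₂)
    (α : (E₁ ≃ₐ[F₁] E₁) →* (E₂ ≃ₐ[F₂] E₂)) (hα : Continuous α) (hopen : IsOpen (Set.range α)) :
    ∃! j : E₂ →+* E₁, ∀ (g : E₁ ≃ₐ[F₁] E₁) (x : E₂), g (j x) = j ((α g) x) := by
  have hc₁ : CharZero E₁ := charZero_of_injective_algebraMap (algebraMap F₁ E₁).injective
  have hc₂ : CharZero E₂ := charZero_of_injective_algebraMap (algebraMap F₂ E₂).injective
  have hs₁ := Vale.Agent.P024.solvablyClosed_of_isAbelianGalois hE₁
  have hs₂ := Vale.Agent.P024.solvablyClosed_of_isAbelianGalois hE₂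
  have h3 := Vale.Agent.P024.H358.roots_main Nat.prime_three (by norm_num)
    (Vale.Agent.P024.H358.isKummerClosed_of_solvablyClosed hE₁ (by norm_num))
    (Vale.Agent.P024.H358.isKummerClosed_of_solvablyClosed hE₂ (by norm_num))
    (Vale.Agent.P024.H358.roots_of_solvablyClosed hE₁)
    (Vale.Agent.P024.H358.roots_of_solvablyClosed hE₂) α hα Vale.Agent.P024.H358.ample_univ
  refine (h3.1.out 1 0).1 fun g n k hn hg z hz => ?_
  exact Vale.Agent.P024.H358.Red.compat_of_goal 
    (Vale.Agent.P024.ALL.goal_of3 Vale.Agent.P024.H558.ALL.propTH Vale.Agent.P024.H903.propD1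
      Vale.Agent.P024.ALL.H95.propF) hs₁ hs₂ α hα hopen g n k hn hg z hz

end Vale.Agent.Results.P024.AllNumberFields
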