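import Vale.Agent.P024.H358.Closed
import Vale.Agent.P024.H358.EtaAll
import Vale.Agent.P024.H644.T10

/-!
Uchida's conjecture for totally real fields.
-/

namespace Vale.Agent.Results.P024.AllTotallyReal

open scoped NumberField Topology
open IsDedekindDomain Filter

/-- `E` has no nontrivial abelian algebraic extension. -/
def IsSolvablyClosed (E : Type*) [Field E] : Prop :=
  ∀ M : IntermediateField E (AlgebraicClosure E), IsAbelianGalois E M → M = ⊥

/-- The prime numbers in `B` have Dirichlet density zero. -/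
def DensityZero (B : Set ℕ) : Prop :=
  Tendsto (fun s : ℝ => (∑' p : {p : ℕ | p.Prime ∧ p ∈ B}, ((p : ℕ) : ℝ) ^ (-s)) /
    Real.log (1 / (s - 1))) (𝓝[>] 1) (𝓝 0)

/-- For every number field `Z` which is Galois over the rationals, the prime numbers `p` in `Q` with
a homomorphism of the ring of integers of `Z` to `ZMod p` (up to finitely many `p`: which split
completely in `Z`) have positive upper Dirichlet density. -/
def Ample (Q : Set ℕ) : Prop :=
  ∀ (Z : Type) [Field Z] [NumberField Z] [IsGalois ℚ Z], ∃ δ : ℝ, 0 < δ ∧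
    ∃ᶠ s : ℝ in 𝓝[>] 1, δ * Real.log (1 / (s - 1)) ≤
      ∑' p : {p : ℕ | p.Prime ∧ p ∈ Q ∧ Nonempty (𝓞 Z →+* ZMod p)}, ((p : ℕ) : ℝ) ^ (-s)

section

variable {F₁ E₁ F₂ E₂ : Type*} [Field F₁] [Field E₁] [Algebra F₁ E₁] [Field F₂] [Field E₂]
  [Algebra F₂ E₂]

/-- The field embedding `j` induces the homomorphism `α`: `g ∘ j = j ∘ α(g)` for all `g`. -/
def Induces (α : (E₁ ≃ₐ[F₁] E₁) →* (E₂ ≃ₐ[F₂] E₂)) (j : E₂ →+* E₁) : Prop :=
  ∀ (g : E₁ ≃ₐ[F₁] E₁) (x : E₂), g (j x) = j ((α g) x)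

/-- If `g` raises the `n`-th roots of unity of `E₁` to the power `k`, then so does `α(g)` on the
`n`-th roots of unity of `E₂`. -/
def CyclotomicCompatible (α : (E₁ ≃ₐ[F₁] E₁) →* (E₂ ≃ₐ[F₂] E₂)) : Prop :=
  ∀ (g : E₁ ≃ₐ[F₁] E₁) (n k : ℕ), 0 < n → (∀ z : E₁, z ^ n = 1 → g z = z ^ k) →
    ∀ z : E₂, z ^ n = 1 → (α g) z = z ^ k

/-- The `N`-th powers of the mod `m` cyclotomic character and of its pullback under `α` agree at
`g`. -/
def AgreeUpTo (α : (E₁ ≃ₐ[F₁] E₁) →* (E₂ ≃ₐ[F₂] E₂)) (N m : ℕ) (g : E₁ ≃ₐ[F₁] E₁) : Prop :=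
  ∀ a b : ℕ, (∀ z : E₁, z ^ m = 1 → g z = z ^ a) → (∀ z : E₂, z ^ m = 1 → (α g) z = z ^ b) →
    a ^ N ≡ b ^ N [MOD m]

end

/-- Let `α` be a continuous homomorphism of the Galois groups of two solvably closed Galois
extensions of number fields.
(1) Uchida's conjecture holds for all totally real number fields `F₁`: if the image of `α` is open,
then `α` is induced by a unique field embedding.
(2) For all number fields `F₁` and all `α` with open image, for all primes `p` which are `1` modulo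
`[F₁ : ℚ]!`, with finitely many exceptions, `α` is compatible with the `p`-adic cyclotomic
characters up to roots of unity of order `p - 1`.
(3) For all number fields `F₁`, the conjecture holds for all `α` which are compatible with the
cyclotomic characters, and it is enough to know the compatibility up to a bounded exponent, on one
open subgroup and for the mod `p` characters with `p` in an ample set. -/
theorem result {F₁ E₁ F₂ E₂ : Type*} [Field F₁] [NumberField F₁] [Field E₁]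
    [Algebra F₁ E₁] [IsGalois F₁ E₁] [Field F₂] [NumberField F₂] [Field E₂] [Algebra F₂ E₂]
    [IsGalois F₂ E₂] (hE₁ : IsSolvablyClosed E₁) (hE₂ : IsSolvablyClosed E₂)
    (α : (E₁ ≃ₐ[F₁] E₁) →* (E₂ ≃ₐ[F₂] E₂)) (hα : Continuous α) :
    (NumberField.IsTotallyReal F₁ → IsOpen (Set.range α) → ∃! j : E₂ →+* E₁, Induces α j) ∧
    (IsOpen (Set.range α) → ∃ B : Set ℕ, B.Finite ∧ ∀ p : ℕ, p.Prime → p ∉ B →
      p ≡ 1 [MOD (Module.finrank ℚ F₁).factorial] →
        ∀ (n : ℕ) (g : E₁ ≃ₐ[F₁] E₁), AgreeUpTo α (p - 1) (p ^ n) g) ∧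
    ((∃! j : E₂ →+* E₁, Induces α j) ↔ CyclotomicCompatible α) ∧
    (CyclotomicCompatible α → IsOpen (Set.range α)) ∧
    (∀ Q : Set ℕ, Ample Q → ((∃! j : E₂ →+* E₁, Induces α j) ↔
      ∃ (N : ℕ) (U : Subgroup (E₁ ≃ₐ[F₁] E₁)), 0 < N ∧ IsOpen (U : Set (E₁ ≃ₐ[F₁] E₁)) ∧
        ∀ p ∈ Q, p.Prime → ∀ g ∈ U, AgreeUpTo α N p g)) ∧
    (∀ B : Set ℕ, DensityZero B → Ample Bᶜ) := by
  have hc₁ : CharZero E₁ := charZero_of_injective_algebraMap (algebraMap F₁ E₁).injective
  have hc₂ : CharZero E₂ := charZero_of_injective_algebraMap (algebraMap F₂ E₂).injective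
  have hs₁ := Vale.Agent.P024.solvablyClosed_of_isAbelianGalois hE₁
  have hs₂ := Vale.Agent.P024.solvablyClosed_of_isAbelianGalois hE₂
  have h3 := Vale.Agent.P024.H358.roots_main Nat.prime_three (by norm_num)
    (Vale.Agent.P024.H358.isKummerClosed_of_solvablyClosed hE₁ (by norm_num))
    (Vale.Agent.P024.H358.isKummerClosed_of_solvablyClosed hE₂ (by norm_num))
    (Vale.Agent.P024.H358.roots_of_solvablyClosed hE₁)
    (Vale.Agent.P024.H358.roots_of_solvablyClosed hE₂) α hα Vale.Agent.P024.H358.ample_univ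
  refine ⟨fun hreal hopen => (h3.1.out 1 0).1 fun g n k hn hg z hz => ?_, fun hopen => ?_,
    h3.1.out 0 1, h3.2,
    fun Q hQ => (Vale.Agent.P024.H358.closed_main hE₁ hE₂ α hα hQ).1.out 0 1, fun B hB =>
    Vale.Agent.P024.H358.ample_compl hB⟩
  · exact Vale.Agent.P024.H358.Red.compat_of_main
      (Vale.Agent.P024.M4.main_of_T3 Vale.Agent.P024.T3.propT3) hs₁ hs₂ α hα hopen g n k hn hg z hz
  · obtain ⟨B, hB, h⟩ := Vale.Agent.P024.H358.Red.agree_all Vale.Agent.P024.T3.propT3 hs₁ hs₂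
      α hα hopen
    exact ⟨B, hB, fun p hp hpB hp1 n g a b ha hb =>
      h p hp hpB ((Nat.modEq_iff_dvd' hp.one_le).1 hp1.symm) g n a b ha hb⟩

end Vale.Agent.Results.P024.AllTotallyReal
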