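import Vale.Agent.P024.H555.Main

/-!
Uchida's conjecture with an arbitrary Galois extension `E₁ / F₁`, and what it says about open
homomorphisms between the Galois groups of number fields (the homomorphism form of the theorem of
Neukirch and Uchida).
-/

namespace Vale.Agent.Results.P024.FullyFaithful

open Vale.Agent.P024.H555

/-- Let `F₁`, `F₂` be number fields, `E₁ / F₁` and `E₂ / F₂` Galois extensions of any degree with
Galois groups `G₁` and `G₂`. Assume that `E₂` is solvably closed; `E₁` is arbitrary.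

(1) Every continuous homomorphism `α : G₁ → G₂` with open image is induced by a unique field
embedding `j : E₂ → E₁` (Uchida's conjecture is the case of a solvably closed `E₁`).
(2) For continuous `α : G₁ → G₂` the following are equivalent: `α` is induced by a field embedding;
the image of `α` is open; the image of `α` has finite index.
(3) If `j` induces `α` then `α` is continuous, its kernel is the group of `F₁(j(E₂))`, its image is
the group of `j⁻¹(F₁)`, the index of the image times `[F₂ : ℚ]` divides `[F₁ : ℚ]`; if `E₂` is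
algebraically closed then `α` is injective and that product is equal to `[F₁ : ℚ]`; and `j` extends
an embedding `i : F₂ → F₁`.
(4) `α ↦ i` is a bijection from the conjugacy classes of continuous homomorphisms with open image
to the embeddings of `F₂` in `F₁` which extend to embeddings of `E₂` in `E₁`; these are all
embeddings of `F₂` in `F₁` if `E₁` is algebraically closed.
(5) Every continuous homomorphism `G₂ → G₂` with open image is bijective.
(6) Let `E₁` be solvably closed, too. If `j` induces `α` and extends `i` then `α` is bijective if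
and only if `j` and `i` are. If `G₁ → G₂` and `G₂ → G₁` are continuous homomorphisms with open
image then both are bijective. -/
theorem result {F₁ E₁ F₂ E₂ : Type*} [Field F₁] [NumberField F₁] [Field E₁]
    [Algebra F₁ E₁] [IsGalois F₁ E₁] [Field F₂] [NumberField F₂] [Field E₂] [Algebra F₂ E₂]
    [IsGalois F₂ E₂] (h₂ : SolvablyClosed E₂) :
    (∀ α : (E₁ ≃ₐ[F₁] E₁) →ₜ* (E₂ ≃ₐ[F₂] E₂), IsOpen (Set.range α) →
      ∃! j : E₂ →+* E₁, Induces α j) ∧
    (∀ α : (E₁ ≃ₐ[F₁] E₁) →ₜ* (E₂ ≃ₐ[F₂] E₂),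
      List.TFAE [∃ j : E₂ →+* E₁, Induces α j, IsOpen (Set.range α),
        α.toMonoidHom.range.FiniteIndex]) ∧
    (∀ (α : (E₁ ≃ₐ[F₁] E₁) →* (E₂ ≃ₐ[F₂] E₂)) (j : E₂ →+* E₁), Induces α j →
      Continuous α ∧
      (∀ g, α g = 1 ↔ ∀ x : E₂, g (j x) = j x) ∧
      (∀ s, s ∈ Set.range α ↔ ∀ x : E₂, j x ∈ Set.range (algebraMap F₁ E₁) → s x = x) ∧
      α.range.index * Module.finrank ℚ F₂ ∣ Module.finrank ℚ F₁ ∧
      (IsAlgClosed E₂ → Function.Injective α ∧
        α.range.index * Module.finrank ℚ F₂ = Module.finrank ℚ F₁) ∧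
      ∃ i : F₂ →+* F₁, Extends j i) ∧
    (∃ Φ : {α : (E₁ ≃ₐ[F₁] E₁) →ₜ* (E₂ ≃ₐ[F₂] E₂) // IsOpen (Set.range α)} → (F₂ →+* F₁),
      (∀ α, ∃ j : E₂ →+* E₁, Induces α.1 j ∧ Extends j (Φ α)) ∧
      (∀ α β, Φ α = Φ β ↔ ∃ s : E₂ ≃ₐ[F₂] E₂, ∀ g, β.1 g = s⁻¹ * α.1 g * s) ∧
      Set.range Φ = {i | ∃ j : E₂ →+* E₁, Extends j i} ∧
      (IsAlgClosed E₁ → Function.Surjective Φ)) ∧
    (∀ α : (E₂ ≃ₐ[F₂] E₂) →ₜ* (E₂ ≃ₐ[F₂] E₂), IsOpen (Set.range α) → Function.Bijective α) ∧
    (SolvablyClosed E₁ →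
      (∀ (α : (E₁ ≃ₐ[F₁] E₁) →* (E₂ ≃ₐ[F₂] E₂)) (j : E₂ →+* E₁) (i : F₂ →+* F₁),
        Induces α j → Extends j i →
          (Function.Bijective α ↔ Function.Bijective j ∧ Function.Bijective i)) ∧
      (∀ (α : (E₁ ≃ₐ[F₁] E₁) →ₜ* (E₂ ≃ₐ[F₂] E₂)) (β : (E₂ ≃ₐ[F₂] E₂) →ₜ* (E₁ ≃ₐ[F₁] E₁)),
        IsOpen (Set.range α) → IsOpen (Set.range β) →
          Function.Bijective α ∧ Function.Bijective β)) := by
  refine ⟨fun α ho => main h₂ α.toMonoidHom α.continuous_toFun ho,
    tfae_form (main h₂), fun α j h => ?_, hom_form (main h₂), fun α ho => ?_,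
    fun h₁ => ⟨fun α j i h hi => h.bijective_iff (main h₁) (main h₁) (main h₂) hi,
      fun α β hα hβ => ?_⟩⟩
  · exact ⟨h.continuous, h.ker_iff, h.mem_range, h.open_range.2.2,
      fun _ => ⟨h.injective (surjective_of_isAlgClosed (F₁ := F₁) j),
        h.index_eq (surjective_of_isAlgClosed (F₁ := F₁) j)⟩, h.exists_base⟩
  · obtain ⟨j, hj, -⟩ := main h₂ α.toMonoidHom α.continuous_toFun ho
    exact hj.bijective
  · obtain ⟨j, hj, -⟩ := main h₂ α.toMonoidHom α.continuous_toFun hα
    obtain ⟨j', hj', -⟩ := main h₁ β.toMonoidHom β.continuous_toFun hβ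
    exact hj.both hj'

end Vale.Agent.Results.P024.FullyFaithful
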