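import Vale.Agent.P024.H358.Joint
import Vale.Agent.P024.H409.Expo

/-!
Uchida's conjecture for totally real fields.
-/

namespace Vale.Agent.Results.P024.PrimeExponent

open scoped NumberField Topology
open IsDedekindDomain Filter

/-- `E` has no nontrivial abelian algebraic extension. -/
def IsSolvablyClosed (E : Type*) [Field E] : Prop :=
  ∀ M : IntermediateField E (AlgebraicClosure E), IsAbelianGalois E M → M = ⊥

/-- The prime numbers in `B` have Dirichlet density zero. -/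
def DensityZero (B : Set ℕ) : Prop :=
  Tendsto (fun s : ℝ => (∑' p : {p : ℕ | p.Prime ∧ p ∈ B}, ((p : ℕ) : ℝ) ^ (-s)) /
    Real.log (1 / (s - 1))) (𝓝[>] 1) (𝓝 0)

/-- For every number field `Z` which is Galois over the rationals, the prime numbers `p` in `Q` with
a homomorphism of the ring of integers of `Z` to `ZMod p` (up to finitely many `p`: which split
completely in `Z`) have positive upper Dirichlet density. -/
def Ample (Q : Set ℕ) : Prop :=
  ∀ (Z : Type) [Field Z] [NumberField Z] [IsGalois ℚ Z], ∃ δ : ℝ, 0 < δ ∧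
    ∃ᶠ s : ℝ in 𝓝[>] 1, δ * Real.log (1 / (s - 1)) ≤
      ∑' p : {p : ℕ | p.Prime ∧ p ∈ Q ∧ Nonempty (𝓞 Z →+* ZMod p)}, ((p : ℕ) : ℝ) ^ (-s)

/-- Every continuous homomorphism `ψ` of the absolute Galois group of `F` to the group of `p`-adic
units which is trivial on the decomposition groups above infinitely many primes of `F` has finite
order: no `ℤ_p`-extension of `F` has infinitely many totally split primes. -/
def NoSplit (F : Type*) [Field F] [NumberField F] (p : ℕ) [Fact p.Prime] : Prop :=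
  ∀ ψ : (AlgebraicClosure F ≃ₐ[F] AlgebraicClosure F) →* ℤ_[p]ˣ, Continuous ψ →
    {v : HeightOneSpectrum (𝓞 F) | ∀ O : ValuationSubring (AlgebraicClosure F),
      (∀ x : 𝓞 F, x ∈ v.asIdeal ↔ algebraMap F (AlgebraicClosure F) x ∈ O.nonunits) →
      ∀ s : AlgebraicClosure F ≃ₐ[F] AlgebraicClosure F, (∀ x, s x ∈ O ↔ x ∈ O) →
        ψ s = 1}.Infinite → ∃ m : ℕ, 0 < m ∧ ∀ g, ψ g ^ m = 1

section

variable {F₁ E₁ F₂ E₂ : Type*} [Field F₁] [Field E₁] [Algebra F₁ E₁] [Field F₂] [Field E₂]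
  [Algebra F₂ E₂]

/-- The field embedding `j` induces the homomorphism `α`: `g ∘ j = j ∘ α(g)` for all `g`. -/
def Induces (α : (E₁ ≃ₐ[F₁] E₁) →* (E₂ ≃ₐ[F₂] E₂)) (j : E₂ →+* E₁) : Prop :=
  ∀ (g : E₁ ≃ₐ[F₁] E₁) (x : E₂), g (j x) = j ((α g) x)

/-- If `g` raises the `n`-th roots of unity of `E₁` to the power `k`, then so does `α(g)` on the
`n`-th roots of unity of `E₂`. -/
def CyclotomicCompatible (α : (E₁ ≃ₐ[F₁] E₁) →* (E₂ ≃ₐ[F₂] E₂)) : Prop :=
  ∀ (g : E₁ ≃ₐ[F₁] E₁) (n k : ℕ), 0 < n → (∀ z : E₁, z ^ n = 1 → g z = z ^ k) →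
    ∀ z : E₂, z ^ n = 1 → (α g) z = z ^ k

/-- The `N`-th powers of the mod `p` cyclotomic character and of its pullback under `α` agree at
`g`. -/
def AgreeUpTo (α : (E₁ ≃ₐ[F₁] E₁) →* (E₂ ≃ₐ[F₂] E₂)) (N p : ℕ) (g : E₁ ≃ₐ[F₁] E₁) : Prop :=
  ∀ a b : ℕ, (∀ z : E₁, z ^ p = 1 → g z = z ^ a) → (∀ z : E₂, z ^ p = 1 → (α g) z = z ^ b) →
    a ^ N ≡ b ^ N [MOD p]

end

/-- Let `α` be a continuous homomorphism of the Galois groups of two solvably closed Galois
extensions of number fields.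
(1) Uchida's conjecture holds for all totally real fields `F₁` which are Galois over the rationals
with an elementary abelian `l`-group as Galois group, for some prime `l`, in particular for all
real quadratic fields and all cyclic fields of odd prime degree.
(2) It holds for all totally real fields `F₁` which for all primes `p` outside a set of density
zero have no `ℤ_p`-extension with infinitely many totally split primes.
(3) For all `F₁`, it holds for all `α` which are compatible with the cyclotomic characters, and it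
is enough to know the compatibility up to a bounded exponent, on one open subgroup and for the
mod `p` characters with `p` in an ample set. -/
theorem result {F₁ E₁ F₂ E₂ : Type*} [Field F₁] [NumberField F₁] [Field E₁]
    [Algebra F₁ E₁] [IsGalois F₁ E₁] [Field F₂] [NumberField F₂] [Field E₂] [Algebra F₂ E₂]
    [IsGalois F₂ E₂] (hE₁ : IsSolvablyClosed E₁) (hE₂ : IsSolvablyClosed E₂)
    (α : (E₁ ≃ₐ[F₁] E₁) →* (E₂ ≃ₐ[F₂] E₂)) (hα : Continuous α) :
    (NumberField.IsTotallyReal F₁ → IsGalois ℚ F₁ → (∀ g h : F₁ ≃ₐ[ℚ] F₁, g * h = h * g) →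
      ∀ l : ℕ, l.Prime → (∀ g : F₁ ≃ₐ[ℚ] F₁, g ^ l = 1) →
      IsOpen (Set.range α) → ∃! j : E₂ →+* E₁, Induces α j) ∧
    (NumberField.IsTotallyReal F₁ → ∀ B : Set ℕ, DensityZero B →
      (∀ (p : ℕ) [Fact p.Prime], p ∉ B → NoSplit F₁ p) →
      IsOpen (Set.range α) → ∃! j : E₂ →+* E₁, Induces α j) ∧
    ((∃! j : E₂ →+* E₁, Induces α j) ↔ CyclotomicCompatible α) ∧
    (CyclotomicCompatible α → IsOpen (Set.range α)) ∧
    (∀ Q : Set ℕ, Ample Q → ((∃! j : E₂ →+* E₁, Induces α j) ↔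
      ∃ (N : ℕ) (U : Subgroup (E₁ ≃ₐ[F₁] E₁)), 0 < N ∧ IsOpen (U : Set (E₁ ≃ₐ[F₁] E₁)) ∧
        ∀ p ∈ Q, p.Prime → ∀ g ∈ U, AgreeUpTo α N p g)) ∧
    (∀ B : Set ℕ, DensityZero B → Ample Bᶜ) := by
  have hc₁ : CharZero E₁ := charZero_of_injective_algebraMap (algebraMap F₁ E₁).injective
  have hc₂ : CharZero E₂ := charZero_of_injective_algebraMap (algebraMap F₂ E₂).injective
  have hs₁ := Vale.Agent.P024.solvablyClosed_of_isAbelianGalois hE₁
  have hs₂ := Vale.Agent.P024.solvablyClosed_of_isAbelianGalois hE₂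
  have h3 := Vale.Agent.P024.H358.roots_main Nat.prime_three (by norm_num)
    (Vale.Agent.P024.H358.isKummerClosed_of_solvablyClosed hE₁ (by norm_num))
    (Vale.Agent.P024.H358.isKummerClosed_of_solvablyClosed hE₂ (by norm_num))
    (Vale.Agent.P024.H358.roots_of_solvablyClosed hE₁)
    (Vale.Agent.P024.H358.roots_of_solvablyClosed hE₂) α hα Vale.Agent.P024.H358.ample_univ
  have hT : NumberField.IsTotallyReal F₁ → ∀ B : Set ℕ, DensityZero B →
      (∀ (p : ℕ) [Fact p.Prime], p ∉ B → NoSplit F₁ p) →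
      IsOpen (Set.range α) → ∃! j : E₂ →+* E₁, Induces α j := fun _ B hB h hopen =>
    Vale.Agent.P024.TR.induced_of_noSplit hs₁ hs₂ α hα hopen B hB h
  refine ⟨?_, hT, h3.1.out 0 1, h3.2, fun Q hQ =>
    (Vale.Agent.P024.H358.closed_main hE₁ hE₂ α hα hQ).1.out 0 1, fun B hB =>
    Vale.Agent.P024.H358.ample_compl hB⟩
  intro _ _ hab l hl hexp hopen
  exact Vale.Agent.P024.H409.uchida_prime_exponent hab l hl hexp hs₁ hs₂ α hα hopen

end Vale.Agent.Results.P024.PrimeExponent
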