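import Vale.Agent.P024.H114.Final

/-!
Uchida's conjecture for homomorphisms compatible with the cyclotomic characters, for fields which
are only closed under `l`-th roots for one odd prime `l`, for example for the Galois groups of
maximal pro-`l` extensions of number fields.
-/

namespace Vale.Agent.Results.P024.ProLHomForm

open scoped NumberField Topology
open Filter

/-- `E` has no nontrivial abelian algebraic extension. -/
def SolvablyClosed (E : Type*) [Field E] : Prop :=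
  ∀ M : IntermediateField E (AlgebraicClosure E), IsGalois E M →
    (∀ σ τ : M ≃ₐ[E] M, σ * τ = τ * σ) → M = ⊥

/-- `E` contains a primitive `l`-th root of unity, and every element of `E` has an `l`-th root
in `E`. -/
def RootClosed (l : ℕ) (E : Type*) [Field E] : Prop :=
  (∃ ζ : E, IsPrimitiveRoot ζ l) ∧ ∀ x : E, ∃ y : E, y ^ l = x

/-- The maximal pro-`l` extension of `F`: the compositum, in an algebraic closure of `F`, of all
finite Galois extensions of `F` whose degree is a power of `l`. -/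
noncomputable def MaxPro (l : ℕ) (F : Type*) [Field F] : IntermediateField F (AlgebraicClosure F) :=
  ⨆ L : {L : IntermediateField F (AlgebraicClosure F) // FiniteDimensional F L ∧ IsGalois F L ∧
    ∃ n : ℕ, Module.finrank F L = l ^ n}, (L : IntermediateField F (AlgebraicClosure F))

/-- The field embedding `j` induces the homomorphism `α`: `g ∘ j = j ∘ α(g)` for all `g`. -/
def Induces {F₁ E₁ F₂ E₂ : Type*} [Field F₁] [Field E₁] [Algebra F₁ E₁] [Field F₂] [Field E₂]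
    [Algebra F₂ E₂] (α : (E₁ ≃ₐ[F₁] E₁) →* (E₂ ≃ₐ[F₂] E₂)) (j : E₂ →+* E₁) : Prop :=
  ∀ (g : E₁ ≃ₐ[F₁] E₁) (x : E₂), g (j x) = j ((α g) x)

/-- `α` is compatible with the cyclotomic characters: if `g` raises the `n`-th roots of unity
of `E₁` to the power `k`, then so does `α(g)` on the `n`-th roots of unity of `E₂`. -/
def CyclotomicCompatible {F₁ E₁ F₂ E₂ : Type*} [Field F₁] [Field E₁] [Algebra F₁ E₁] [Field F₂]
    [Field E₂] [Algebra F₂ E₂] (α : (E₁ ≃ₐ[F₁] E₁) →* (E₂ ≃ₐ[F₂] E₂)) : Prop :=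
  ∀ (g : E₁ ≃ₐ[F₁] E₁) (n k : ℕ), 0 < n → (∀ z : E₁, z ^ n = 1 → g z = z ^ k) →
    ∀ z : E₂, z ^ n = 1 → (α g) z = z ^ k

/-- `E` contains the subfield `C` of degree `l` of the field `ℚ(μ_p)` of `p`-th roots of unity, and
`g` fixes it. -/
def Fixes (l p : ℕ) {F E : Type*} [Field F] [Field E] [Algebra F E] (g : E ≃ₐ[F] E) : Prop :=
  ∃ (C : IntermediateField ℚ (CyclotomicField p ℚ)) (f : C →+* E), Module.finrank ℚ C = l ∧
    ∀ c : C, g (f c) = f c

/-- The prime numbers in `B` have Dirichlet density zero. -/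
def DensityZero (B : Set ℕ) : Prop :=
  Tendsto (fun s : ℝ => (∑' p : {p : ℕ | p.Prime ∧ p ∈ B}, ((p : ℕ) : ℝ) ^ (-s)) /
    Real.log (1 / (s - 1))) (𝓝[>] 1) (𝓝 0)

/-- For every number field `Z` which is Galois over `ℚ`, the primes in `Q` which have a prime
divisor of degree one in `Z` (so that they split completely, up to finitely many) have positive
upper Dirichlet density. -/
def Meets (Q : Set ℕ) : Prop :=
  ∀ (Z : Type) [Field Z] [NumberField Z] [IsGalois ℚ Z], ∃ δ : ℝ, 0 < δ ∧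
    ∃ᶠ s : ℝ in 𝓝[>] 1, δ * Real.log (1 / (s - 1)) ≤
      ∑' p : {p : ℕ | p.Prime ∧ p ∈ Q ∧ Nonempty (𝓞 Z →+* ZMod p)}, ((p : ℕ) : ℝ) ^ (-s)

theorem result {F₁ E₁ F₂ E₂ : Type*} [Field F₁] [NumberField F₁] [Field E₁]
    [Algebra F₁ E₁] [IsGalois F₁ E₁] [Field F₂] [NumberField F₂] [Field E₂] [Algebra F₂ E₂]
    [IsGalois F₂ E₂] (α : (E₁ ≃ₐ[F₁] E₁) →* (E₂ ≃ₐ[F₂] E₂)) (hα : Continuous α) :
    -- solvably closed fields
    (SolvablyClosed E₁ → SolvablyClosed E₂ →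
      ((∃! j : E₂ →+* E₁, Induces α j) ↔ CyclotomicCompatible α) ∧
        (CyclotomicCompatible α → IsOpen (Set.range α))) ∧
    -- one odd prime `l`; `E₁ / F₁` is any Galois extension, `E₂` is closed under `l`-th roots
    (∀ l : ℕ, l.Prime → l ≠ 2 → RootClosed l E₂ →
      List.TFAE [
        ∃! j : E₂ →+* E₁, Induces α j,
        ∀ p : ℕ, p.Prime → p ≡ 1 [MOD l] → ∀ g : E₁ ≃ₐ[F₁] E₁, Fixes l p g ↔ Fixes l p (α g),
        ∃ (U : Subgroup (E₁ ≃ₐ[F₁] E₁)) (Q : Set ℕ), IsOpen (U : Set (E₁ ≃ₐ[F₁] E₁)) ∧ Meets Q ∧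
          ∀ p ∈ Q, p.Prime → p ≡ 1 [MOD l] → ∀ g ∈ U, Fixes l p (α g) → Fixes l p g,
        IsOpen (Set.range α) ∧ ∃ (U : Subgroup (E₁ ≃ₐ[F₁] E₁)) (Q : Set ℕ),
          IsOpen (U : Set (E₁ ≃ₐ[F₁] E₁)) ∧ Meets Q ∧
          ∀ p ∈ Q, p.Prime → p ≡ 1 [MOD l] → Fixes l p (1 : E₁ ≃ₐ[F₁] E₁) ∧
            ∀ g ∈ U, Fixes l p g → Fixes l p (α g)] ∧
      ((∃ j : E₂ →+* E₁, Induces α j) → IsOpen (Set.range α)) ∧
      ((∀ n : ℕ, 0 < n → (∃ ζ : E₁, IsPrimitiveRoot ζ n) ∧ ∃ ζ : E₂, IsPrimitiveRoot ζ n) →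
        ((∃! j : E₂ →+* E₁, Induces α j) ↔ CyclotomicCompatible α))) ∧
    -- fields closed under `l`-th roots
    (∀ l : ℕ, l.Prime → (SolvablyClosed E₂ → RootClosed l E₂) ∧
      ((∃ ζ : F₂, IsPrimitiveRoot ζ l) →
        IsGalois F₂ (MaxPro l F₂) ∧ RootClosed l (MaxPro l F₂))) ∧
    -- sets of primes
    ∀ B : Set ℕ, DensityZero B → Meets Bᶜ := by
  have hc₂ : CharZero E₂ := charZero_of_injective_algebraMap (algebraMap F₂ E₂).injective
  have hopen : (∃ j : E₂ →+* E₁, Induces α j) → IsOpen (Set.range α) := fun ⟨j, hj⟩ =>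
    Vale.Agent.P024.isOpen_range_of_induces α hα j hj
  have hc₁ : CharZero E₁ := charZero_of_injective_algebraMap (algebraMap F₁ E₁).injective
  refine ⟨?_, ?_, ?_, ?_⟩
  · intro hE₁ hE₂
    have h := Vale.Agent.P024.H114.equiv_compat Nat.prime_three (by norm_num)
      (Vale.Agent.P024.H114.SolvablyClosed.rootClosed hE₂ Nat.prime_three)
      (fun n hn => Vale.Agent.P024.SolvablyClosed.exists_primitiveRoot hE₁ n hn)
      (fun n hn => Vale.Agent.P024.SolvablyClosed.exists_primitiveRoot hE₂ n hn) α hα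
    exact ⟨h, fun hc => hopen (h.2 hc).exists⟩
  · intro l hl hl2 hE₂
    exact ⟨Vale.Agent.P024.H114.equiv hl hl2 hE₂ α hα, hopen, fun hr =>
      Vale.Agent.P024.H114.equiv_compat hl hl2 hE₂ (fun n hn => (hr n hn).1)
        (fun n hn => (hr n hn).2) α hα⟩
  · intro l hl
    exact ⟨fun h => Vale.Agent.P024.H114.SolvablyClosed.rootClosed h hl, fun hζ =>
      ⟨Vale.Agent.P024.H114.isGalois_maxPro, Vale.Agent.P024.H114.rootClosed_maxPro hl hζ⟩⟩
  · intro B hB
    exact Vale.Agent.P024.H114.meets_compl hB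

end Vale.Agent.Results.P024.ProLHomForm
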